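import Vale.Agent.P176.Dimension

/-!
Failure of finiteness of the finitistic dimension: over every field of characteristic zero
there is a finite-dimensional algebra with finitely generated modules of every projective
dimension of the shape 2n+4.
-/

namespace Vale.Agent.Results.P176.NotFinite

open CategoryTheory

/-- Over each field of characteristic zero some finite-dimensional algebra has finitely generated
modules of arbitrarily large finite projective dimension. -/
theorem result : ∀ (k : Type) [Field k] [CharZero k],
    ∃ (A : Type) (_ : Ring A) (_ : Algebra k A), Module.Finite k A ∧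
      ∀ n : ℕ, ∃ M : ModuleCat.{0} A, Module.Finite A M ∧
        projectiveDimension M = ((2 * n + 4 : ℕ) : WithBot ℕ∞) := by
  intro k _ _
  refine ⟨Vale.Agent.P176.TT k, inferInstance, inferInstance,
    Vale.Agent.P176.TT_finite, fun n => ?_⟩
  obtain ⟨hle, hge⟩ := Vale.Agent.P176.pd_MM (k := k) n
  refine ⟨ModuleCat.of (Vale.Agent.P176.TT k) (Vale.Agent.P176.MM k (n + 1)),
    Vale.Agent.P176.MM_finite_TT (n + 1), le_antisymm ?_ ?_⟩
  · exact (projectiveDimension_le_iff _ _).2 hle
  · exact (projectiveDimension_ge_iff _ _).2 hge

end Vale.Agent.Results.P176.NotFinite
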